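import Vale.Agent.P367.Lab.MF

namespace Vale.Agent.P367.Lab

open Finset ComplexConjugate MeasureTheory ProbabilityTheory Filter Topology
open Vale.Agent.P367.Gap Vale.Agent.P367.Lim

variable {V : Type} [Fintype V] [DecidableEq V] {V' : Type} [Fintype V'] [DecidableEq V']

lemma FF_equiv {p : ℕ} (W : V' → CP p → ℂ) (γ : ℕ → ℝ) (s : ℝ) (e : V ≃ V') (ξ : V' → V' → ℝ)
    (φ : V' → CP p → ℂ) :
    FF W γ s ξ φ = FF (fun j => W (e j)) γ s (fun i j => ξ (e i) (e j)) (fun j => φ (e j)) := by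
  unfold FF
  rw [← (Equiv.arrowCongr e (Equiv.refl (CP p))).sum_comp]
  refine sum_congr rfl fun X _ => ?_
  have h0 : ∀ i, (Equiv.arrowCongr e (Equiv.refl (CP p))) X (e i) = X i := by
    intro i; simp [Equiv.arrowCongr]
  congr 1
  · rw [← e.prod_comp]
    refine prod_congr rfl fun i _ => ?_
    rw [h0]
  · congr 4
    unfold QI
    rw [← e.sum_comp]
    refine sum_congr rfl fun i _ => ?_
    rw [← e.sum_comp]
    refine sum_congr rfl fun j _ => ?_
    rw [h0, h0]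
    simp only [EmbeddingLike.apply_eq_iff_eq]

/-- the remaining system seen by `m` sites with paths `y` -/
noncomputable def rest {p : ℕ} (W : V' → CP p → ℂ) (γ : ℕ → ℝ) (s : ℝ) (y : V → CP p) : ℂ :=
  Complex.exp (-((s ^ 2 / 4 * QI γ p (fun _ _ => 0) y : ℝ) : ℂ)) *
    FF W γ s (fun _ _ => 0) (fun _ x =>
      Complex.exp (-((s ^ 2 / 2 * ∑ i, (qq γ p (y i) x) ^ 2 : ℝ) : ℂ)))

/-- split-off of a group of sites -/
lemma FF_split {p : ℕ} (w : V → CP p → ℂ) (W : V' → CP p → ℂ) (γ : ℕ → ℝ) (s : ℝ)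
    (φ : V → CP p → ℂ) :
    FF (Sum.elim w W) γ s (fun _ _ => 0) (Sum.elim φ (fun _ _ => 1))
      = ∑ y : V → CP p, (∏ i, w i (y i) * φ i (y i)) * rest W γ s y := by
  unfold rest FF
  rw [← (Equiv.sumArrowEquivProdArrow V V' (CP p)).symm.sum_comp, Fintype.sum_prod_type]
  refine sum_congr rfl fun X _ => ?_
  rw [mul_sum, mul_sum]
  refine sum_congr rfl fun Y _ => ?_
  have hl : ∀ i, (Equiv.sumArrowEquivProdArrow V V' (CP p)).symm (X, Y) (Sum.inl i) = X i :=
    fun i => rfl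
  have hr : ∀ j, (Equiv.sumArrowEquivProdArrow V V' (CP p)).symm (X, Y) (Sum.inr j) = Y j :=
    fun j => rfl
  rw [Fintype.prod_sum_type]
  simp_rw [hl, hr, Sum.elim_inl, Sum.elim_inr, mul_one]
  have hq : QI γ p (fun _ _ => 0) ((Equiv.sumArrowEquivProdArrow V V' (CP p)).symm (X, Y))
      = QI γ p (fun _ _ => 0) X + QI γ p (fun _ _ => 0) Y
        + 2 * ∑ j, ∑ i, (qq γ p (X i) (Y j)) ^ 2 := by
    unfold QI
    simp only [Fintype.sum_sum_type, hl, hr, Sum.inl.injEq, Sum.inr.injEq, reduceCtorEq, if_false,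
      sum_add_distrib, zero_mul, add_zero]
    have h1 : ∑ x : V', ∑ x_1 : V, (qq γ p (Y x) (X x_1)) ^ 2
        = ∑ j, ∑ i, (qq γ p (X i) (Y j)) ^ 2 := by
      refine sum_congr rfl fun j _ => sum_congr rfl fun i _ => ?_
      rw [qq_comm]
    have h2 : ∑ x : V, ∑ x_1 : V', (qq γ p (X x) (Y x_1)) ^ 2
        = ∑ j, ∑ i, (qq γ p (X i) (Y j)) ^ 2 := by
      rw [Finset.sum_comm]
    rw [h1, h2]
    ring
  have hp : ∏ j, W j (Y j) * (Complex.exp (-((s ^ 2 / 2 * ∑ i, (qq γ p (X i) (Y j)) ^ 2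
        : ℝ) : ℂ)))
      = (∏ j, W j (Y j)) *
        Complex.exp (-((s ^ 2 / 2 * ∑ j, ∑ i, (qq γ p (X i) (Y j)) ^ 2 : ℝ) : ℂ)) := by
    rw [prod_mul_distrib, ← Complex.exp_sum]
    congr 2
    rw [sum_neg_distrib, ← Complex.ofReal_sum, mul_sum]
  rw [hp, hq]
  have he : Complex.exp (-((s ^ 2 / 4 * (QI γ p (fun _ _ => 0) X + QI γ p (fun _ _ => 0) Y
        + 2 * ∑ j, ∑ i, (qq γ p (X i) (Y j)) ^ 2) : ℝ) : ℂ))
      = Complex.exp (-((s ^ 2 / 4 * QI γ p (fun _ _ => 0) X : ℝ) : ℂ)) *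
        Complex.exp (-((s ^ 2 / 4 * QI γ p (fun _ _ => 0) Y : ℝ) : ℂ)) *
        Complex.exp (-((s ^ 2 / 2 * ∑ j, ∑ i, (qq γ p (X i) (Y j)) ^ 2 : ℝ) : ℂ)) := by
    rw [← Complex.exp_add, ← Complex.exp_add]
    congr 1
    push_cast
    ring
  rw [he]
  ring

lemma wgt_open (U : Lay) (p : ℕ) (x : CP p) (h : x.1 (Fin.last p) ≠ x.2 (Fin.last p)) :
    wgt U p x = 0 := by
  unfold wgt
  rw [if_neg h, mul_zero]

lemma sum_last {U : Lay} (hU : IsU U) (p : ℕ) (x : CP p) :
    ∑ c : Bool × Bool, wgt U (p + 1)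
      ((Fin.snoc (α := fun _ => Bool) x.1 c.1, Fin.snoc (α := fun _ => Bool) x.2 c.2) : CP (p + 1))
      = wgt U p x := by
  have h1 : ∀ c : Bool × Bool, wgt U (p + 1)
      ((Fin.snoc (α := fun _ => Bool) x.1 c.1, Fin.snoc (α := fun _ => Bool) x.2 c.2) : CP (p + 1))
      = (U p c.1 (x.1 (Fin.last p)) * conj (U p c.2 (x.2 (Fin.last p)))
        * (if c.1 = c.2 then 1 else 0)) * (kap U p x.1 * conj (kap U p x.2)) := by
    intro c
    simp only [wgt, kap, Fin.snoc_last, Fin.snoc_castSucc, Fin.init_snoc, map_mul]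
    ring
  simp_rw [h1]
  rw [← sum_mul, Fintype.sum_prod_type]
  have h2 : ∀ c : Bool, ∑ d : Bool, (U p c (x.1 (Fin.last p))
      * conj (U p d (x.2 (Fin.last p))) * (if c = d then (1 : ℂ) else 0))
      = U p c (x.1 (Fin.last p)) * conj (U p c (x.2 (Fin.last p))) := by
    intro c
    rw [sum_eq_single c]
    · simp
    · intro d _ hd; simp [Ne.symm hd]
    · intro h; exact absurd (mem_univ c) h
  simp only [h2, hU p]
  unfold wgt
  ring

lemma sum_wgt_zero (U : Lay) : ∑ x : CP 0, wgt U 0 x = 1 := by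
  rw [Fintype.sum_prod_type]
  have h : ∀ a b : Pth 0, wgt U 0 (a, b) = if a = b then (1 / 2 : ℂ) else 0 := by
    intro a b
    have hs : (((Real.sqrt 2)⁻¹ : ℝ) : ℂ) * (((Real.sqrt 2)⁻¹ : ℝ) : ℂ) = 1 / 2 := by
      rw [← Complex.ofReal_mul, ← mul_inv, Real.mul_self_sqrt (by norm_num)]
      norm_num
    by_cases hab : a = b
    · subst hab
      simp only [wgt, kap, Complex.conj_ofReal, if_true, mul_one]
      exact hs
    · have : a (Fin.last 0) ≠ b (Fin.last 0) := by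
        intro h'
        apply hab
        funext k
        rw [Subsingleton.elim (α := Fin 1) k (Fin.last 0)]
        exact h'
      simp only [wgt]
      rw [if_neg this, if_neg hab, mul_zero]
  simp_rw [h]
  simp only [sum_ite_eq, mem_univ, if_true]
  rw [sum_const, card_univ, Fintype.card_fun, Fintype.card_fin, Fintype.card_bool]
  norm_num

variable {Ω : Type} [MeasurableSpace Ω]

lemma wbar_open (L : LLay Ω) (μ : Measure Ω) (p : ℕ) (x : CP p)
    (h : x.1 (Fin.last p) ≠ x.2 (Fin.last p)) : wbar L μ p x = 0 := by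
  unfold wbar
  simp_rw [wgt_open _ p x h]
  simp

lemma sum_last_bar (L : LLay Ω) (μ : Measure Ω) [IsFiniteMeasure μ] (p : ℕ) (x : CP p) :
    ∑ c : Bool × Bool, wbar L μ (p + 1)
      ((Fin.snoc (α := fun _ => Bool) x.1 c.1, Fin.snoc (α := fun _ => Bool) x.2 c.2) : CP (p + 1))
      = wbar L μ p x := by
  unfold wbar
  rw [← integral_finsetSum _ (fun c _ => L.integrable_wgt μ (p + 1) _)]
  congr 1
  funext w
  exact sum_last (L.unitary w) p x

lemma sum_wbar_zero (L : LLay Ω) (μ : Measure Ω) [IsProbabilityMeasure μ] :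
    ∑ x : CP 0, wbar L μ 0 x = 1 := by
  unfold wbar
  rw [← integral_finsetSum _ (fun c _ => L.integrable_wgt μ 0 _)]
  simp_rw [sum_wgt_zero]
  simp

/-- causality -/
theorem FF_succ (L : LLay Ω) (μ : V → Measure Ω) [∀ j, IsFiniteMeasure (μ j)] (γ : ℕ → ℝ)
    (p : ℕ) (s : ℝ) (φ : V → CP p → ℂ) :
    FF (fun j => wbar L (μ j) (p + 1)) γ s (fun _ _ => 0) (fun j x => φ j (ini x))
      = FF (fun j => wbar L (μ j) p) γ s (fun _ _ => 0) φ := by
  unfold FF
  rw [← (splitC V p).symm.sum_comp, Fintype.sum_prod_type]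
  refine sum_congr rfl fun X _ => ?_
  have hini : ∀ c j, ini ((splitC V p).symm (X, c) j) = X j := by
    intro c j
    simp only [splitC, Equiv.coe_fn_symm_mk, ini, Fin.init_snoc]
  have hQ : ∀ c, QI γ (p + 1) (fun _ _ => 0) ((splitC V p).symm (X, c))
      = ∑ i, ∑ j, if i = j then 0 else (qh γ p (X i) (X j)) ^ 2 := by
    intro c
    unfold QI
    refine sum_congr rfl fun i _ => sum_congr rfl fun j _ => ?_
    rw [qq_succ, hini, hini]
    simp
  simp_rw [hQ, hini]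
  rw [← sum_mul]
  have h3 : ∑ c : V → Bool × Bool, ∏ j, wbar L (μ j) (p + 1) ((splitC V p).symm (X, c) j)
        * φ j (X j)
      = ∏ j, wbar L (μ j) p (X j) * φ j (X j) := by
    simp_rw [prod_mul_distrib]
    rw [← sum_mul]
    congr 1
    have h4 := (Finset.prod_univ_sum (fun _ : V => (univ : Finset (Bool × Bool)))
      (fun j c => wbar L (μ j) (p + 1) ((Fin.snoc (α := fun _ => Bool) (X j).1 c.1,
        Fin.snoc (α := fun _ => Bool) (X j).2 c.2) : CP (p + 1))))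
    rw [Fintype.piFinset_univ] at h4
    have h5 : ∀ c : V → Bool × Bool, ∀ j, (splitC V p).symm (X, c) j
        = ((Fin.snoc (α := fun _ => Bool) (X j).1 (c j).1,
          Fin.snoc (α := fun _ => Bool) (X j).2 (c j).2) : CP (p + 1)) := fun c j => rfl
    simp_rw [h5]
    rw [← h4]
    refine prod_congr rfl fun j _ => ?_
    exact sum_last_bar L (μ j) p (X j)
  rw [h3]
  by_cases hcl : ∀ j, (X j).1 (Fin.last p) = (X j).2 (Fin.last p)
  · congr 5
    unfold QI
    refine sum_congr rfl fun i _ => sum_congr rfl fun j _ => ?_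
    rw [qh_eq_of_closed γ p _ _ (hcl i) (hcl j)]
    simp
  · push Not at hcl
    obtain ⟨j, hj⟩ := hcl
    have h0 : ∏ j, wbar L (μ j) p (X j) * φ j (X j) = 0 := by
      refine prod_eq_zero (mem_univ j) ?_
      rw [wbar_open _ _ _ _ hj, zero_mul]
    rw [h0]
    ring

/-- marginal of `m` sites in a system of `m + N` sites -/
noncomputable def Mg (L : LLay Ω) (μ : Measure Ω) (γ : ℕ → ℝ) (p m N : ℕ) (s : ℝ)
    (y : Fin m → CP p) : ℂ :=
  FF (V := Fin m ⊕ Fin N) (fun _ => wbar L μ p) γ s (fun _ _ => 0)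
    (Sum.elim (fun i x => if x = y i then 1 else 0) (fun _ _ => 1))

lemma norm_Mg_le (L : LLay Ω) (μ : Measure Ω) [IsProbabilityMeasure μ] (γ : ℕ → ℝ) (p m N : ℕ)
    (s : ℝ) (y : Fin m → CP p) : ‖Mg L μ γ p m N s y‖ ≤ 1 := by
  refine norm_FF_bar_le L (fun _ => μ) γ p s _ _
    (Sum.elim (fun i k b => if b = (y i).1 k then 1 else 0) (fun _ _ _ => 1))
    (Sum.elim (fun i k b => if b = (y i).2 k then 1 else 0) (fun _ _ _ => 1)) ?_ ?_ ?_
  · rintro (i | j) k b
    · simp only [Sum.elim_inl]; split_ifs <;> simp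
    · simp
  · rintro (i | j) k b
    · simp only [Sum.elim_inl]; split_ifs <;> simp
    · simp
  · rintro (i | j) x
    · simp only [Sum.elim_inl]
      exact indicator_prod x (y i)
    · simp

lemma elim_const {A B C : Type} (c : C) : (fun _ : A ⊕ B => c) = Sum.elim (fun _ => c) (fun _ => c) := by
  funext x; cases x <;> rfl

lemma Mg_eq (L : LLay Ω) (μ : Measure Ω) (γ : ℕ → ℝ) (p m N : ℕ) (s : ℝ) (y : Fin m → CP p) :
    Mg L μ γ p m N s y
      = (∏ i, wbar L μ p (y i)) * rest (V' := Fin N) (fun _ => wbar L μ p) γ s y := by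
  unfold Mg
  rw [elim_const (wbar L μ p), FF_split, sum_eq_single y]
  · simp
  · intro X _ hX
    obtain ⟨i, hi⟩ := Function.ne_iff.1 hX
    rw [prod_eq_zero (mem_univ i), zero_mul]
    rw [if_neg hi, mul_zero]
  · intro h; exact absurd (mem_univ _) h

lemma FF_inl (L : LLay Ω) (μ : Measure Ω) (γ : ℕ → ℝ) (p r N : ℕ) (s : ℝ) (u : CP p → ℂ) :
    FF (V := Fin r ⊕ Fin N) (fun _ => wbar L μ p) γ s (fun _ _ => 0)
        (Sum.elim (fun _ => u) (fun _ _ => 1))
      = ∑ y : Fin r → CP p, (∏ i, u (y i)) * Mg L μ γ p r N s y := by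
  rw [elim_const (wbar L μ p), FF_split]
  refine sum_congr rfl fun y _ => ?_
  rw [Mg_eq, prod_mul_distrib]
  ring

lemma FF_powerset {p : ℕ} (w : CP p → ℂ) (γ : ℕ → ℝ) (N : ℕ) (s : ℝ) (u : CP p → ℂ) :
    FF (V := Fin N) (fun _ => w) γ s (fun _ _ => 0) (fun _ x => 1 + u x)
      = ∑ T ∈ (univ : Finset (Fin N)).powerset,
        FF (V := Fin N) (fun _ => w) γ s (fun _ _ => 0) (fun j x => if j ∈ T then u x else 1) := by
  unfold FF
  rw [Finset.sum_comm]
  refine sum_congr rfl fun X _ => ?_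
  rw [prod_mul_distrib, prod_one_add, mul_sum, sum_mul]
  refine sum_congr rfl fun T _ => ?_
  rw [prod_mul_distrib, prod_ite_mem, univ_inter]

lemma FF_subset {p : ℕ} (w : CP p → ℂ) (γ : ℕ → ℝ) (N : ℕ) (s : ℝ) (u : CP p → ℂ)
    (T : Finset (Fin N)) :
    FF (V := Fin N) (fun _ => w) γ s (fun _ _ => 0) (fun j x => if j ∈ T then u x else 1)
      = FF (V := Fin T.card ⊕ Fin (N - T.card)) (fun _ => w) γ s (fun _ _ => 0)
        (Sum.elim (fun _ => u) (fun _ _ => 1)) := by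
  have hn : Tᶜ.card = N - T.card := by
    rw [card_compl, Fintype.card_fin]
  rw [FF_equiv (fun _ => w) γ s (finSumEquivOfFinset (rfl : T.card = T.card) hn)]
  congr 1
  funext j
  rcases j with i | j
  · funext x
    rw [finSumEquivOfFinset_inl, if_pos (orderEmbOfFin_mem T rfl i)]
    rfl
  · funext x
    have := orderEmbOfFin_mem Tᶜ hn j
    rw [finSumEquivOfFinset_inr, if_neg (mem_compl.1 this)]
    rfl

lemma FF_one_add (L : LLay Ω) (μ : Measure Ω) (γ : ℕ → ℝ) (p N : ℕ) (s : ℝ) (u : CP p → ℂ) :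
    FF (V := Fin N) (fun _ => wbar L μ p) γ s (fun _ _ => 0) (fun _ x => 1 + u x)
      = ∑ r ∈ range (N + 1), (N.choose r : ℂ) *
        ∑ y : Fin r → CP p, (∏ i, u (y i)) * Mg L μ γ p r (N - r) s y := by
  rw [FF_powerset]
  simp_rw [FF_subset, FF_inl]
  have := sum_powerset_apply_card (fun r => ∑ y : Fin r → CP p, (∏ i, u (y i))
    * Mg L μ γ p r (N - r) s y) (x := (univ : Finset (Fin N)))
  rw [this, card_univ, Fintype.card_fin]
  refine sum_congr rfl fun r _ => ?_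
  rw [nsmul_eq_mul]

/-- limiting one-site weights -/
noncomputable def gg (L : LLay Ω) (μ : Measure Ω) (γ : ℕ → ℝ) : (p : ℕ) → CP p → ℂ
  | 0, x => wbar L μ 0 x
  | p + 1, x => wbar L μ (p + 1) x *
      Complex.exp (-(1 / 2 * ∑ y : CP p, gg L μ γ p y * ((qh γ p (ini x) y ^ 2 : ℝ) : ℂ)))

/-- influence functional -/
noncomputable def infl (L : LLay Ω) (μ : Measure Ω) (γ : ℕ → ℝ) : (p : ℕ) → CP p → ℂ
  | 0, _ => 1
  | p + 1, x =>
      Complex.exp (-(1 / 2 * ∑ y : CP p, gg L μ γ p y * ((qh γ p (ini x) y ^ 2 : ℝ) : ℂ)))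

lemma gg_eq (L : LLay Ω) (μ : Measure Ω) (γ : ℕ → ℝ) (p : ℕ) (x : CP p) :
    gg L μ γ p x = wbar L μ p x * infl L μ γ p x := by
  cases p with
  | zero => simp [gg, infl]
  | succ p => rfl

/-- convergence of the rest of the system -/
def LT (L : LLay Ω) (μ : Measure Ω) (γ : ℕ → ℝ) (p : ℕ) : Prop :=
  ∀ (m : ℕ) (y : Fin m → CP p) (s : ℕ → ℝ), Tendsto (fun N : ℕ => (N : ℝ) * s N ^ 2) atTop (𝓝 1) →
    Tendsto (fun N => rest (V' := Fin N) (fun _ => wbar L μ p) γ (s N) y) atTop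
      (𝓝 (∏ i, infl L μ γ p (y i)))

lemma LT.tendsto_Mg {L : LLay Ω} {μ : Measure Ω} {γ : ℕ → ℝ} {p : ℕ} (h : LT L μ γ p) (m : ℕ)
    (y : Fin m → CP p) (s : ℕ → ℝ)
    (hs : Tendsto (fun N : ℕ => (N : ℝ) * s N ^ 2) atTop (𝓝 1)) :
    Tendsto (fun N => Mg L μ γ p m N (s N) y) atTop (𝓝 (∏ i, gg L μ γ p (y i))) := by
  simp_rw [Mg_eq, gg_eq, prod_mul_distrib]
  exact (h m y s hs).const_mul _

lemma tendsto_Mg_sub (L : LLay Ω) (μ : Measure Ω) (γ : ℕ → ℝ) (p : ℕ) (h : LT L μ γ p) (r : ℕ)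
    (y : Fin r → CP p) (s : ℕ → ℝ)
    (hs : Tendsto (fun N : ℕ => (N : ℝ) * s N ^ 2) atTop (𝓝 1)) :
    Tendsto (fun N => Mg L μ γ p r (N - r) (s N) y) atTop (𝓝 (∏ i, gg L μ γ p (y i))) := by
  have h1 := h.tendsto_Mg r y (fun N => s (N + r)) (tendsto_shift_s s hs r)
  have h2 : Tendsto (fun N : ℕ => N - r) atTop atTop := tendsto_sub_atTop_nat r
  refine (h1.comp h2).congr' ?_
  filter_upwards [eventually_ge_atTop r] with N hN
  simp only [Function.comp]
  rw [Nat.sub_add_cancel hN]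

/-- exponential functionals converge -/
theorem tendsto_FF_exp (L : LLay Ω) (μ : Measure Ω) [IsProbabilityMeasure μ] (γ : ℕ → ℝ) (p : ℕ)
    (h : LT L μ γ p) (s : ℕ → ℝ)
    (hs : Tendsto (fun N : ℕ => (N : ℝ) * s N ^ 2) atTop (𝓝 1))
    (u : ℕ → CP p → ℂ) (t : CP p → ℂ)
    (hu : ∀ y, Tendsto (fun N : ℕ => (N : ℂ) * u N y) atTop (𝓝 (t y))) :
    Tendsto (fun N => FF (V := Fin N) (fun _ => wbar L μ p) γ (s N) (fun _ _ => 0)
      (fun _ x => 1 + u N x)) atTop (𝓝 (Complex.exp (∑ y, gg L μ γ p y * t y))) := by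
  -- termwise description
  let a : ℕ → ℕ → ℂ := fun N r => (N.choose r : ℂ) *
        ∑ y : Fin r → CP p, (∏ i, u N (y i)) * Mg L μ γ p r (N - r) (s N) y
  have ha : ∀ N, FF (V := Fin N) (fun _ => wbar L μ p) γ (s N) (fun _ _ => 0)
      (fun _ x => 1 + u N x) = ∑' r, a N r := by
    intro N
    rw [FF_one_add, tsum_eq_sum (s := range (N + 1))]
    intro r hr
    have : N < r := by
      by_contra h'
      exact hr (mem_range.2 (by omega))
    simp only [a, Nat.choose_eq_zero_of_lt this, Nat.cast_zero, zero_mul]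
  simp_rw [ha]
  let A : ℂ := ∑ y, gg L μ γ p y * t y
  have hexp : Complex.exp A = ∑' r : ℕ, A ^ r / (r.factorial : ℂ) := by
    rw [Complex.exp_eq_exp_ℂ, NormedSpace.exp_eq_tsum_div]
  change Tendsto (fun N => ∑' r, a N r) atTop (𝓝 (Complex.exp A))
  rw [hexp]
  -- uniform bound
  obtain ⟨C, hC0, hC⟩ : ∃ C : ℝ, 0 ≤ C ∧ ∀ᶠ N : ℕ in atTop, ∀ y, ‖(N : ℂ) * u N y‖ ≤ C := by
    refine ⟨∑ y, (‖t y‖ + 1), sum_nonneg fun _ _ => by positivity, ?_⟩
    rw [eventually_all]
    intro y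
    have h1 : ∀ᶠ N : ℕ in atTop, ‖(N : ℂ) * u N y‖ < ‖t y‖ + 1 :=
      (hu y).norm.eventually_lt_const (by linarith)
    filter_upwards [h1] with N hN
    refine hN.le.trans ?_
    exact single_le_sum (f := fun y => ‖t y‖ + 1) (fun _ _ => by positivity) (mem_univ y)
  refine tendsto_tsum_of_dominated_convergence
    (bound := fun r : ℕ => (C * Fintype.card (CP p)) ^ r / r.factorial)
    (Real.summable_pow_div_factorial _) ?_ ?_
  · intro r
    have h1 : Tendsto (fun N : ℕ => (N.choose r : ℂ) * ((1 : ℂ) / N) ^ r) atTop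
        (𝓝 (1 / (r.factorial : ℂ))) := by
      have h2 : Tendsto (fun n : ℕ => (n : ℝ) * (1 / n)) atTop (𝓝 1) := by
        refine tendsto_const_nhds.congr' ?_
        filter_upwards [eventually_gt_atTop 0] with n hn
        have : (n : ℝ) ≠ 0 := by positivity
        field_simp
      have h3 := tendsto_choose_mul_pow_atTop (k := r) h2
      rw [one_pow] at h3
      have h4 := (Complex.continuous_ofReal.tendsto _).comp h3
      refine (h4.congr fun n => ?_).trans (le_of_eq ?_)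
      · simp
      · simp
    have h5 : ∀ y : Fin r → CP p, Tendsto (fun N : ℕ => (∏ i, ((N : ℂ) * u N (y i)))
        * Mg L μ γ p r (N - r) (s N) y) atTop
        (𝓝 ((∏ i, t (y i)) * ∏ i, gg L μ γ p (y i))) := fun y =>
      (tendsto_finsetProd _ fun i _ => hu (y i)).mul (tendsto_Mg_sub L μ γ p h r y s hs)
    have h6 := h1.mul (tendsto_finsetSum univ fun y _ => h5 y)
    have h7 : 1 / (r.factorial : ℂ) * ∑ y : Fin r → CP p, (∏ i, t (y i)) * ∏ i, gg L μ γ p (y i)
        = A ^ r / (r.factorial : ℂ) := by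
      have : A ^ r = ∑ y : Fin r → CP p, (∏ i, t (y i)) * ∏ i, gg L μ γ p (y i) := by
        have h8 := (Finset.prod_univ_sum (fun _ : Fin r => (univ : Finset (CP p)))
          (fun _ y => gg L μ γ p y * t y))
        rw [Fintype.piFinset_univ, prod_const, card_univ, Fintype.card_fin] at h8
        rw [h8]
        refine sum_congr rfl fun y _ => ?_
        rw [prod_mul_distrib, mul_comm]
      rw [this]
      ring
    rw [h7] at h6
    refine h6.congr' ?_
    filter_upwards [eventually_gt_atTop 0] with N hN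
    have hN' : (N : ℂ) ≠ 0 := by exact_mod_cast hN.ne'
    simp only [a, mul_sum]
    refine sum_congr rfl fun y _ => ?_
    rw [prod_mul_distrib, prod_const, card_univ, Fintype.card_fin, one_div, inv_pow]
    field_simp
  · filter_upwards [hC, eventually_gt_atTop 0] with N hN hN0 r
    have hN' : (0 : ℝ) < N := by exact_mod_cast hN0
    have hub : ∀ y, ‖u N y‖ ≤ C / N := by
      intro y
      rw [le_div_iff₀ hN', mul_comm]
      simpa using hN y
    simp only [a, norm_mul, Complex.norm_natCast]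
    have h1 : ‖∑ y : Fin r → CP p, (∏ i, u N (y i)) * Mg L μ γ p r (N - r) (s N) y‖
        ≤ (Fintype.card (CP p) : ℝ) ^ r * (C / N) ^ r := by
      refine (norm_sum_le _ _).trans ?_
      calc ∑ y : Fin r → CP p, ‖(∏ i, u N (y i)) * Mg L μ γ p r (N - r) (s N) y‖
          ≤ ∑ _y : Fin r → CP p, (C / N) ^ r := by
            refine sum_le_sum fun y _ => ?_
            rw [norm_mul, norm_prod]
            have h2 : ∏ i, ‖u N (y i)‖ ≤ (C / N) ^ r := by
              calc ∏ i, ‖u N (y i)‖ ≤ ∏ _i : Fin r, (C / N) :=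
                    prod_le_prod (fun _ _ => norm_nonneg _) fun i _ => hub (y i)
                _ = (C / N) ^ r := by rw [prod_const, card_univ, Fintype.card_fin]
            calc (∏ i, ‖u N (y i)‖) * ‖Mg L μ γ p r (N - r) (s N) y‖
                ≤ (C / N) ^ r * 1 := by
                  gcongr
                  exact norm_Mg_le _ _ _ _ _ _ _ _
              _ = _ := mul_one _
        _ = _ := by
            rw [sum_const, card_univ, Fintype.card_fun, Fintype.card_fin, nsmul_eq_mul]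
            push_cast
            rfl
    have h3 : (N.choose r : ℝ) ≤ (N : ℝ) ^ r / r.factorial := Nat.choose_le_pow_div r N
    calc (N.choose r : ℝ) * ‖∑ y : Fin r → CP p, (∏ i, u N (y i)) * Mg L μ γ p r (N - r) (s N) y‖
        ≤ ((N : ℝ) ^ r / r.factorial) * ((Fintype.card (CP p) : ℝ) ^ r * (C / N) ^ r) := by
          gcongr
      _ = (C * Fintype.card (CP p)) ^ r / r.factorial := by
          rw [mul_pow, div_pow]
          field_simp

/-- convergence of exponential functionals -/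
theorem tendsto_FF_T (L : LLay Ω) (μ : Measure Ω) [IsProbabilityMeasure μ] (γ : ℕ → ℝ) (p : ℕ)
    (h : LT L μ γ p) (s : ℕ → ℝ)
    (hs : Tendsto (fun N : ℕ => (N : ℝ) * s N ^ 2) atTop (𝓝 1)) (T : CP p → ℝ) :
    Tendsto (fun N => FF (V := Fin N) (fun _ => wbar L μ p) γ (s N) (fun _ _ => 0)
      (fun _ x => Complex.exp (-((s N ^ 2 / 2 * T x : ℝ) : ℂ)))) atTop
      (𝓝 (Complex.exp (-(1 / 2 * ∑ y, gg L μ γ p y * ((T y : ℝ) : ℂ))))) := by
  have h1 := tendsto_FF_exp L μ γ p h s hs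
    (fun N x => Complex.exp (-((s N ^ 2 / 2 * T x : ℝ) : ℂ)) - 1)
    (fun x => -(1 / 2 * ((T x : ℝ) : ℂ))) (by
      intro y
      refine tendsto_nat_mul_exp_sub_one _ _ ?_
      have h2 : Tendsto (fun N : ℕ => -((((N : ℝ) * s N ^ 2) * (1 / 2 * T y) : ℝ) : ℂ)) atTop
          (𝓝 (-(((1 : ℝ) * (1 / 2 * T y) : ℝ) : ℂ))) := by
        refine Tendsto.neg ?_
        exact (Complex.continuous_ofReal.tendsto _).comp (hs.mul_const _)
      refine (h2.congr fun N => ?_).trans (le_of_eq ?_)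
      · push_cast; ring
      · congr 1; push_cast; ring)
  have h3 : ∑ y, gg L μ γ p y * (-(1 / 2 * ((T y : ℝ) : ℂ)))
      = -(1 / 2 * ∑ y, gg L μ γ p y * ((T y : ℝ) : ℂ)) := by
    rw [mul_sum, ← sum_neg_distrib]
    refine sum_congr rfl fun y _ => ?_
    ring
  rw [h3] at h1
  refine h1.congr fun N => ?_
  congr 1
  funext j x
  ring

lemma LT_zero (L : LLay Ω) (μ : Measure Ω) [IsProbabilityMeasure μ] (γ : ℕ → ℝ) :
    LT L μ γ 0 := by
  intro m y s _
  have hq : ∀ {V₀ : Type} [Fintype V₀] [DecidableEq V₀] (X : V₀ → CP 0),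
      QI γ 0 (fun _ _ => 0) X = 0 := by
    intro V₀ _ _ X
    unfold QI
    refine sum_eq_zero fun i _ => sum_eq_zero fun j _ => ?_
    simp [qq]
  have h : ∀ N, rest (V' := Fin N) (fun _ => wbar L μ 0) γ (s N) y = ∏ i, infl L μ γ 0 (y i) := by
    intro N
    unfold rest FF
    simp_rw [hq]
    have hqq : ∀ x x' : CP 0, qq γ 0 x x' = 0 := by intro x x'; simp [qq]
    simp_rw [hqq]
    simp only [mul_zero, Complex.ofReal_zero, neg_zero, Complex.exp_zero, mul_one, one_mul,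
      ne_eq, OfNat.ofNat_ne_zero, not_false_eq_true, zero_pow, sum_const_zero, infl,
      prod_const_one]
    have h4 := (Finset.prod_univ_sum (fun _ : Fin N => (univ : Finset (CP 0)))
      (fun _ x => wbar L μ 0 x))
    rw [Fintype.piFinset_univ] at h4
    rw [← h4]
    simp [sum_wbar_zero]
  simp_rw [h]
  exact tendsto_const_nhds

lemma rest_succ (L : LLay Ω) (μ : Measure Ω) [IsProbabilityMeasure μ] (γ : ℕ → ℝ) (p m N : ℕ)
    (s : ℝ) (y : Fin m → CP (p + 1)) :
    rest (V' := Fin N) (fun _ => wbar L μ (p + 1)) γ s y =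
      Complex.exp (-((s ^ 2 / 4 * QI γ (p + 1) (fun _ _ => 0) y : ℝ) : ℂ)) *
      FF (V := Fin N) (fun _ => wbar L μ p) γ s (fun _ _ => 0)
        (fun _ x => Complex.exp (-((s ^ 2 / 2 * ∑ i, qh γ p (ini (y i)) x ^ 2 : ℝ) : ℂ))) := by
  unfold rest
  congr 1
  have h := FF_succ (V := Fin N) L (fun _ => μ) γ p s (fun _ x =>
      Complex.exp (-((s ^ 2 / 2 * ∑ i, qh γ p (ini (y i)) x ^ 2 : ℝ) : ℂ)))
  exact h

theorem LT_succ (L : LLay Ω) (μ : Measure Ω) [IsProbabilityMeasure μ] (γ : ℕ → ℝ) (p : ℕ)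
    (h : LT L μ γ p) : LT L μ γ (p + 1) := by
  intro m y s hs
  simp_rw [rest_succ]
  have h1 := tendsto_FF_T L μ γ p h s hs (fun x => ∑ i, qh γ p (ini (y i)) x ^ 2)
  have hs0 : Tendsto (fun N : ℕ => s N ^ 2) atTop (𝓝 0) := by
    have h2 : Tendsto (fun N : ℕ => ((N : ℝ))⁻¹) atTop (𝓝 0) := tendsto_inv_atTop_nhds_zero_nat
    have h3 := h2.mul hs
    rw [zero_mul] at h3
    refine h3.congr' ?_
    filter_upwards [eventually_gt_atTop 0] with N hN
    have : (N : ℝ) ≠ 0 := by exact_mod_cast hN.ne'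
    field_simp
  have h2 : Tendsto (fun N : ℕ => Complex.exp
      (-((s N ^ 2 / 4 * QI γ (p + 1) (fun _ _ => 0) y : ℝ) : ℂ))) atTop (𝓝 1) := by
    have h3 : Tendsto (fun N : ℕ => (-((s N ^ 2 / 4 * QI γ (p + 1) (fun _ _ => 0) y : ℝ) : ℂ)))
        atTop (𝓝 (-(((0 : ℝ) / 4 * QI γ (p + 1) (fun _ _ => 0) y : ℝ) : ℂ))) := by
      refine Tendsto.neg ?_
      exact (Complex.continuous_ofReal.tendsto _).comp ((hs0.div_const 4).mul_const _)
    have h4 := (Complex.continuous_exp.tendsto _).comp h3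
    refine h4.trans (le_of_eq ?_)
    simp
  have h3 := h2.mul h1
  refine h3.trans (le_of_eq ?_)
  congr 1
  rw [one_mul]
  simp only [infl]
  rw [← Complex.exp_sum]
  congr 1
  rw [sum_neg_distrib, ← mul_sum, Finset.sum_comm]
  congr 2
  refine sum_congr rfl fun x _ => ?_
  push_cast
  rw [mul_sum]

theorem LT_all (L : LLay Ω) (μ : Measure Ω) [IsProbabilityMeasure μ] (γ : ℕ → ℝ) (p : ℕ) :
    LT L μ γ p := by
  induction p with
  | zero => exact LT_zero L μ γ
  | succ p ih => exact LT_succ L μ γ p ih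

end Vale.Agent.P367.Lab
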