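import Vale.Agent.P367.Lab.Path

namespace Vale.Agent.P367.Lab

open Finset ComplexConjugate MeasureTheory ProbabilityTheory Filter Topology
open Vale.Agent.P367.Gap Vale.Agent.P367.Lim

variable {V : Type} [Fintype V] [DecidableEq V]

/-- averaged path functional with one-site weights `W` -/
noncomputable def FF {p : ℕ} (W : V → CP p → ℂ) (γ : ℕ → ℝ) (s : ℝ) (ξ : V → V → ℝ)
    (φ : V → CP p → ℂ) : ℂ :=
  ∑ X : V → CP p, (∏ j, W j (X j) * φ j (X j)) *
    Complex.exp (-((s ^ 2 / 4 * QI γ p ξ X : ℝ) : ℂ))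

/-- for each coupling realisation the path sum is bounded by one -/
lemma norm_inner_le (Y : V → Lay) (hY : ∀ j, IsU (Y j)) (γ : ℕ → ℝ) (p : ℕ) (s : ℝ)
    (ξ : V → V → ℝ) (φ : V → CP p → ℂ)
    (U W : V → Fin (p + 1) → Bool → ℂ) (hU : ∀ j k b, ‖U j k b‖ ≤ 1) (hW : ∀ j k b, ‖W j k b‖ ≤ 1)
    (hφ : ∀ j x, φ j x = (∏ k, U j k (x.1 k)) * ∏ k, W j k (x.2 k)) (J : V × V → ℝ) :
    ‖∑ X : V → CP p, (∏ j, wgt (Y j) p (X j) * φ j (X j)) *
      Complex.exp (-(Complex.I * ((∑ e, cf γ p s ξ X e * J e : ℝ) : ℂ)))‖ ≤ 1 := by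
  classical
  let θ : ℕ → (V → Bool) → ℝ := fun k z =>
    if k < p then γ k * EJ s J (fun _ _ => 1) z else EJ s J ξ z
  let θ' : ℕ → (V → Bool) → ℝ := fun k z =>
    if k < p then γ k * EJ s J (fun _ _ => 1) z else 0
  let u : ℕ → (V → Bool) → ℂ := fun k z =>
    (if h : k < p + 1 then ∏ j, U j ⟨k, h⟩ (z j) else 1) * Complex.exp (-(Complex.I * (θ k z : ℂ)))
  let v : ℕ → (V → Bool) → ℂ := fun k z =>
    (if h : k < p + 1 then ∏ j, conj (W j ⟨k, h⟩ (z j)) else 1)
      * Complex.exp (-(Complex.I * (θ' k z : ℂ)))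
  have hu : ∀ k z, ‖u k z‖ ≤ 1 := by
    intro k z
    simp only [u, norm_mul, norm_exp_neg_I, mul_one]
    split_ifs
    · rw [norm_prod]
      exact prod_le_one (fun _ _ => norm_nonneg _) fun j _ => hU _ _ _
    · simp
  have hv : ∀ k z, ‖v k z‖ ≤ 1 := by
    intro k z
    simp only [v, norm_mul, norm_exp_neg_I, mul_one]
    split_ifs
    · rw [norm_prod]
      refine prod_le_one (fun _ _ => norm_nonneg _) fun j _ => ?_
      rw [RCLike.norm_conj]
      exact hW _ _ _
    · simp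
  have key := norm_sum_paths_le (V := V) Y hY p u v hu hv
  convert key using 3 with X
  rw [prod_mul_distrib, mul_assoc]
  congr 1
  have e1 : ∏ k : Fin (p + 1), u k (fun j => (X j).1 k)
      = (∏ j, ∏ k, U j k ((X j).1 k)) * Complex.exp (-(Complex.I *
        ((∑ k : Fin p, γ k * EJ s J (fun _ _ => 1) (fun j => (X j).1 k.castSucc)
          + EJ s J ξ (fun j => (X j).1 (Fin.last p)) : ℝ) : ℂ))) := by
    simp only [u]
    rw [prod_mul_distrib, ← Complex.exp_sum]
    congr 1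
    · rw [Finset.prod_comm]
      refine prod_congr rfl fun k _ => ?_
      rw [dif_pos k.2]
    · congr 1
      rw [sum_neg_distrib, ← mul_sum]
      congr 2
      rw [← Complex.ofReal_sum]
      congr 1
      rw [Fin.sum_univ_castSucc]
      congr 1
      · refine sum_congr rfl fun k _ => ?_
        simp [θ]
      · simp [θ]
  have e2 : ∏ k : Fin (p + 1), conj (v k (fun j => (X j).2 k))
      = (∏ j, ∏ k, W j k ((X j).2 k)) * Complex.exp ((Complex.I *
        ((∑ k : Fin p, γ k * EJ s J (fun _ _ => 1) (fun j => (X j).2 k.castSucc) : ℝ) : ℂ))) := by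
    simp only [v, map_mul]
    rw [prod_mul_distrib]
    congr 1
    · rw [Finset.prod_comm]
      refine prod_congr rfl fun k _ => ?_
      rw [dif_pos k.2, map_prod]
      simp
    · have : ∀ k : Fin (p + 1), conj (Complex.exp (-(Complex.I * (θ' k (fun j => (X j).2 k) : ℂ))))
          = Complex.exp (Complex.I * (θ' k (fun j => (X j).2 k) : ℂ)) := by
        intro k
        rw [← Complex.exp_conj, map_neg, map_mul, Complex.conj_I, Complex.conj_ofReal]
        congr 1; ring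
      simp_rw [this]
      rw [← Complex.exp_sum, ← mul_sum]
      congr 2
      rw [← Complex.ofReal_sum]
      congr 1
      rw [Fin.sum_univ_castSucc]
      simp [θ']
  rw [e1, e2]
  have e3 : ∏ j, φ j (X j) = (∏ j, ∏ k, U j k ((X j).1 k)) * ∏ j, ∏ k, W j k ((X j).2 k) := by
    rw [← prod_mul_distrib]
    exact prod_congr rfl fun j _ => hφ j (X j)
  rw [e3, sum_cf_mul]
  rw [mul_mul_mul_comm, ← Complex.exp_add]
  congr 2
  push_cast
  ring

/-- Gaussian representation of `FF` -/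
lemma FF_eq_integral {p : ℕ} (Wt : V → CP p → ℂ) (γ : ℕ → ℝ) (s : ℝ) (ξ : V → V → ℝ)
    (φ : V → CP p → ℂ) :
    FF Wt γ s ξ φ = ∫ J : V × V → ℝ, (∑ X : V → CP p, (∏ j, Wt j (X j) * φ j (X j)) *
      Complex.exp (-(Complex.I * ((∑ e, cf γ p s ξ X e * J e : ℝ) : ℂ))))
        ∂(Measure.pi fun _ => gaussianReal 0 1) := by
  rw [integral_finsetSum]
  · unfold FF
    refine sum_congr rfl fun X _ => ?_
    rw [integral_const_mul, gauss_char, half_sum_cf]
  · intro X _
    exact (integrable_exp_lin _).const_mul _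

/-- unitarity bound for product-form one-site factors, frozen labels -/
theorem norm_FF_le (Y : V → Lay) (hY : ∀ j, IsU (Y j)) (γ : ℕ → ℝ) (p : ℕ) (s : ℝ)
    (ξ : V → V → ℝ) (φ : V → CP p → ℂ)
    (U W : V → Fin (p + 1) → Bool → ℂ) (hU : ∀ j k b, ‖U j k b‖ ≤ 1) (hW : ∀ j k b, ‖W j k b‖ ≤ 1)
    (hφ : ∀ j x, φ j x = (∏ k, U j k (x.1 k)) * ∏ k, W j k (x.2 k)) :
    ‖FF (fun j => wgt (Y j) p) γ s ξ φ‖ ≤ 1 := by
  rw [FF_eq_integral]
  have := norm_integral_le_of_norm_le_const (μ := Measure.pi fun _ : V × V => gaussianReal 0 1)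
    (Filter.Eventually.of_forall fun J => norm_inner_le Y hY γ p s ξ φ U W hU hW hφ J)
  simpa using this

lemma IsU.norm_le {U : Lay} (hU : IsU U) (k : ℕ) (z a : Bool) : ‖U k z a‖ ≤ 1 := by
  have h := hU k a a
  rw [if_pos rfl] at h
  simp_rw [Complex.mul_conj'] at h
  have h1 : ∑ z, ‖U k z a‖ ^ 2 = 1 := by exact_mod_cast h
  have h2 : ‖U k z a‖ ^ 2 ≤ 1 := by
    rw [← h1]
    exact single_le_sum (f := fun z => ‖U k z a‖ ^ 2) (fun _ _ => by positivity) (mem_univ z)
  nlinarith [norm_nonneg (U k z a)]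

lemma norm_kap_le {U : Lay} (hU : IsU U) (p : ℕ) (a : Pth p) : ‖kap U p a‖ ≤ 1 := by
  induction p with
  | zero =>
    have h1 : (1 : ℝ) ≤ Real.sqrt 2 := by
      rw [Real.one_le_sqrt]; norm_num
    rw [kap, Complex.norm_real, Real.norm_eq_abs, abs_of_nonneg (by positivity)]
    exact inv_le_one_of_one_le₀ h1
  | succ p ih =>
    rw [kap, norm_mul]
    exact mul_le_one₀ (hU.norm_le _ _ _) (norm_nonneg _) (ih _)

lemma norm_wgt_le {U : Lay} (hU : IsU U) (p : ℕ) (x : CP p) : ‖wgt U p x‖ ≤ 1 := by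
  rw [wgt, norm_mul, norm_mul, RCLike.norm_conj]
  have h3 : ‖(if x.1 (Fin.last p) = x.2 (Fin.last p) then (1 : ℂ) else 0)‖ ≤ 1 := by
    split_ifs <;> simp
  exact mul_le_one₀ (mul_le_one₀ (norm_kap_le hU _ _) (norm_nonneg _) (norm_kap_le hU _ _))
    (norm_nonneg _) h3

variable {Ω : Type} [MeasurableSpace Ω]

/-- layers depending on a label -/
structure LLay (Ω : Type) [MeasurableSpace Ω] where
  /-- matrix elements -/
  U : ℕ → Ω → Bool → Bool → ℂ
  unitary : ∀ w, IsU (fun k => U k w)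
  meas : ∀ k z a, Measurable fun w => U k w z a

/-- layers at a fixed label -/
def LLay.at (L : LLay Ω) (w : Ω) : Lay := fun k => L.U k w

lemma LLay.meas_kap (L : LLay Ω) (p : ℕ) (a : Pth p) : Measurable fun w => kap (L.at w) p a := by
  induction p with
  | zero => simp only [kap]; exact measurable_const
  | succ p ih =>
    simp only [kap]
    exact (L.meas _ _ _).mul (ih _)

lemma LLay.meas_wgt (L : LLay Ω) (p : ℕ) (x : CP p) : Measurable fun w => wgt (L.at w) p x := by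
  simp only [wgt]
  exact ((L.meas_kap p x.1).mul (Complex.continuous_conj.measurable.comp (L.meas_kap p x.2))).mul
    measurable_const

lemma LLay.integrable_wgt (L : LLay Ω) (μ : Measure Ω) [IsFiniteMeasure μ] (p : ℕ) (x : CP p) :
    Integrable (fun w => wgt (L.at w) p x) μ :=
  (integrable_const (1 : ℝ)).mono' (L.meas_wgt p x).aestronglyMeasurable
    (Filter.Eventually.of_forall fun w => norm_wgt_le (L.unitary w) p x)

/-- averaged closed contour weight -/
noncomputable def wbar (L : LLay Ω) (μ : Measure Ω) (p : ℕ) (x : CP p) : ℂ :=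
  ∫ w, wgt (L.at w) p x ∂μ

/-- averaging over independent labels -/
lemma FF_bar (L : LLay Ω) (μ : V → Measure Ω) [∀ j, IsProbabilityMeasure (μ j)] (γ : ℕ → ℝ) (p : ℕ)
    (s : ℝ) (ξ : V → V → ℝ) (φ : V → CP p → ℂ) :
    FF (fun j => wbar L (μ j) p) γ s ξ φ
      = ∫ w : V → Ω, FF (fun j => wgt (L.at (w j)) p) γ s ξ φ ∂(Measure.pi μ) := by
  unfold FF
  rw [integral_finsetSum]
  · refine sum_congr rfl fun X _ => ?_
    rw [integral_mul_const]
    congr 1
    rw [integral_fintype_prod_eq_prod (f := fun j (w : Ω) => wgt (L.at w) p (X j) * φ j (X j))]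
    refine prod_congr rfl fun j _ => ?_
    rw [integral_mul_const]
    rfl
  · intro X _
    refine Integrable.mul_const ?_ _
    exact Integrable.fintype_prod (f := fun j (w : Ω) => wgt (L.at w) p (X j) * φ j (X j))
      fun j => (L.integrable_wgt (μ j) p (X j)).mul_const _

/-- unitarity bound, averaged labels -/
theorem norm_FF_bar_le (L : LLay Ω) (μ : V → Measure Ω) [∀ j, IsProbabilityMeasure (μ j)]
    (γ : ℕ → ℝ) (p : ℕ) (s : ℝ) (ξ : V → V → ℝ) (φ : V → CP p → ℂ)
    (U W : V → Fin (p + 1) → Bool → ℂ) (hU : ∀ j k b, ‖U j k b‖ ≤ 1) (hW : ∀ j k b, ‖W j k b‖ ≤ 1)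
    (hφ : ∀ j x, φ j x = (∏ k, U j k (x.1 k)) * ∏ k, W j k (x.2 k)) :
    ‖FF (fun j => wbar L (μ j) p) γ s ξ φ‖ ≤ 1 := by
  rw [FF_bar]
  have := norm_integral_le_of_norm_le_const (μ := Measure.pi μ)
    (Filter.Eventually.of_forall fun w => norm_FF_le (fun j => L.at (w j))
      (fun j => L.unitary (w j)) γ p s ξ φ U W hU hW hφ)
  simpa using this

end Vale.Agent.P367.Lab
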