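import Vale.Agent.P367.Lim.LT3

namespace Vale.Agent.P367.Lab

open Finset ComplexConjugate MeasureTheory ProbabilityTheory Filter Topology
open Vale.Agent.P367.Gap Vale.Agent.P367.Lim

/-- a sequence of one-site matrices, `U k z z'` = matrix element of layer `k` -/
abbrev Lay : Type := ℕ → Bool → Bool → ℂ

/-- all layers are unitary (orthonormal columns) -/
def IsU (U : Lay) : Prop :=
  ∀ k a b, ∑ z, U k z a * conj (U k z b) = if a = b then 1 else 0

/-- one-sided path weight -/
noncomputable def kap (U : Lay) : (p : ℕ) → Pth p → ℂ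
  | 0, _ => (((Real.sqrt 2)⁻¹ : ℝ) : ℂ)
  | p + 1, a => U p (a (Fin.last (p + 1))) (a (Fin.last p).castSucc) * kap U p (Fin.init a)

/-- closed contour weight -/
noncomputable def wgt (U : Lay) (p : ℕ) (x : CP p) : ℂ :=
  kap U p x.1 * conj (kap U p x.2) * (if x.1 (Fin.last p) = x.2 (Fin.last p) then 1 else 0)

variable {V : Type} [Fintype V] [DecidableEq V]

/-- many-site amplitude with insertions `u k` -/
noncomputable def amp (U : V → Lay) : (p : ℕ) → (ℕ → (V → Bool) → ℂ) → (V → Bool) → ℂ
  | 0, u, z => u 0 z * ∏ _j : V, (((Real.sqrt 2)⁻¹ : ℝ) : ℂ)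
  | p + 1, u, z => u (p + 1) z * ∑ z' : V → Bool, (∏ j, U j p (z j) (z' j)) * amp U p u z'

lemma tensor_unitary (U : V → Lay) (hU : ∀ j, IsU (U j)) (p : ℕ) (a b : V → Bool) :
    ∑ z : V → Bool, (∏ j, U j p (z j) (a j)) * conj (∏ j, U j p (z j) (b j))
      = if a = b then 1 else 0 := by
  have h1 : ∀ z : V → Bool, (∏ j, U j p (z j) (a j)) * conj (∏ j, U j p (z j) (b j))
      = ∏ j, (U j p (z j) (a j) * conj (U j p (z j) (b j))) := by
    intro z
    rw [map_prod, prod_mul_distrib]
  simp_rw [h1]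
  have h2 := (Finset.prod_univ_sum (fun _ : V => (univ : Finset Bool))
    (fun j z => U j p z (a j) * conj (U j p z (b j))))
  rw [Fintype.piFinset_univ] at h2
  rw [← h2]
  simp_rw [hU _ p]
  by_cases h : a = b
  · subst h; simp
  · rw [if_neg h]
    obtain ⟨j, hj⟩ := Function.ne_iff.1 h
    exact prod_eq_zero (mem_univ j) (if_neg hj)

lemma sum_norm_sq_tensor (U : V → Lay) (hU : ∀ j, IsU (U j)) (p : ℕ) (f : (V → Bool) → ℂ) :
    ∑ z : V → Bool, ‖∑ z' : V → Bool, (∏ j, U j p (z j) (z' j)) * f z'‖ ^ 2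
      = ∑ z', ‖f z'‖ ^ 2 := by
  have hc : ((∑ z : V → Bool, ‖∑ z' : V → Bool, (∏ j, U j p (z j) (z' j)) * f z'‖ ^ 2 : ℝ) : ℂ)
      = ((∑ z', ‖f z'‖ ^ 2 : ℝ) : ℂ) := by
    push_cast
    simp_rw [← Complex.mul_conj']
    calc ∑ z : V → Bool, (∑ z', (∏ j, U j p (z j) (z' j)) * f z')
            * conj (∑ z', (∏ j, U j p (z j) (z' j)) * f z')
        = ∑ z : V → Bool, ∑ a : V → Bool, ∑ b : V → Bool,
            ((∏ j, U j p (z j) (a j)) * conj (∏ j, U j p (z j) (b j))) * (f a * conj (f b)) := by
          refine sum_congr rfl fun z _ => ?_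
          rw [map_sum, sum_mul_sum]
          refine sum_congr rfl fun a _ => sum_congr rfl fun b _ => ?_
          rw [map_mul]
          ring
      _ = ∑ a : V → Bool, ∑ b : V → Bool,
            (∑ z : V → Bool, (∏ j, U j p (z j) (a j)) * conj (∏ j, U j p (z j) (b j)))
              * (f a * conj (f b)) := by
          rw [sum_comm]
          refine sum_congr rfl fun a _ => ?_
          rw [sum_comm]
          refine sum_congr rfl fun b _ => ?_
          rw [sum_mul]
      _ = ∑ z', f z' * conj (f z') := by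
          simp_rw [tensor_unitary U hU]
          simp
  exact_mod_cast hc

lemma sum_norm_sq_amp (U : V → Lay) (hU : ∀ j, IsU (U j)) (p : ℕ) (u : ℕ → (V → Bool) → ℂ)
    (hu : ∀ k z, ‖u k z‖ ≤ 1) : ∑ z, ‖amp U p u z‖ ^ 2 ≤ 1 := by
  induction p with
  | zero =>
    have h : ∀ z : V → Bool, ‖amp U 0 u z‖ ^ 2 ≤ (2⁻¹ : ℝ) ^ Fintype.card V := by
      intro z
      simp only [amp, norm_mul, prod_const, card_univ, norm_pow]
      have h1 : ‖(((Real.sqrt 2)⁻¹ : ℝ) : ℂ)‖ = (Real.sqrt 2)⁻¹ := by
        rw [Complex.norm_real, Real.norm_eq_abs, abs_of_nonneg (by positivity)]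
      rw [h1, mul_pow, ← pow_mul, mul_comm (Fintype.card V) 2, pow_mul, inv_pow,
        Real.sq_sqrt (by norm_num)]
      have h2 : ‖u 0 z‖ ^ 2 ≤ 1 := pow_le_one₀ (norm_nonneg _) (hu 0 z)
      calc ‖u 0 z‖ ^ 2 * (2⁻¹ : ℝ) ^ Fintype.card V ≤ 1 * (2⁻¹ : ℝ) ^ Fintype.card V := by
            gcongr
        _ = _ := one_mul _
    refine (sum_le_sum fun z _ => h z).trans ?_
    rw [sum_const, card_univ, Fintype.card_fun, Fintype.card_bool, nsmul_eq_mul]
    push_cast
    rw [← mul_pow]
    norm_num
  | succ p ih =>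
    have h : ∀ z : V → Bool, ‖amp U (p + 1) u z‖ ^ 2
        ≤ ‖∑ z' : V → Bool, (∏ j, U j p (z j) (z' j)) * amp U p u z'‖ ^ 2 := by
      intro z
      simp only [amp, norm_mul]
      have := hu (p + 1) z
      have h0 := norm_nonneg (∑ z' : V → Bool, (∏ j, U j p (z j) (z' j)) * amp U p u z')
      gcongr
      exact mul_le_of_le_one_left h0 this
    refine (sum_le_sum fun z _ => h z).trans ?_
    rw [sum_norm_sq_tensor U hU]
    exact ih

lemma amp_path (U : V → Lay) (p : ℕ) (u : ℕ → (V → Bool) → ℂ) (z : V → Bool) :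
    amp U p u z = ∑ A : V → Pth p, (if (fun j => A j (Fin.last p)) = z then (1 : ℂ) else 0)
      * ((∏ j, kap (U j) p (A j)) * ∏ k : Fin (p + 1), u k (fun j => A j k)) := by
  induction p generalizing z with
  | zero =>
    have h : ∀ A : V → Pth 0, (if (fun j => A j (Fin.last 0)) = z then (1 : ℂ) else 0)
        * ((∏ j, kap (U j) 0 (A j)) * ∏ k : Fin (0 + 1), u k (fun j => A j k))
        = if A = (fun j _ => z j) then u 0 z * ∏ _j : V, (((Real.sqrt 2)⁻¹ : ℝ) : ℂ) else 0 := by
      intro A
      by_cases hA : A = (fun j _ => z j)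
      · subst hA
        simp [kap]
        ring
      · rw [if_neg hA, if_neg, zero_mul]
        intro h
        apply hA
        funext j k
        rw [← h]
        congr 1
        exact Subsingleton.elim (α := Fin 1) _ _
    simp_rw [h]
    simp [amp]
  | succ p ih =>
    rw [← (splitE V p).symm.sum_comp, Fintype.sum_prod_type]
    have h1 : ∀ (A : V → Pth p) (y : V → Bool),
        (if (fun j => (splitE V p).symm (A, y) j (Fin.last (p + 1))) = z then (1 : ℂ) else 0)
        * ((∏ j, kap (U j) (p + 1) ((splitE V p).symm (A, y) j))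
          * ∏ k : Fin (p + 1 + 1), u k (fun j => (splitE V p).symm (A, y) j k))
        = (if y = z then (1 : ℂ) else 0) * (u (p + 1) y *
            ((∏ j, U j p (y j) (A j (Fin.last p))) *
            ((∏ j, kap (U j) p (A j)) * ∏ k : Fin (p + 1), u k (fun j => A j k)))) := by
      intro A y
      have e1 : (fun j => (splitE V p).symm (A, y) j (Fin.last (p + 1))) = y := by
        funext j; simp [splitE]
      have e2 : ∀ j, kap (U j) (p + 1) ((splitE V p).symm (A, y) j)
          = U j p (y j) (A j (Fin.last p)) * kap (U j) p (A j) := by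
        intro j
        have hl : (splitE V p).symm (A, y) j (Fin.last (p + 1)) = y j := by simp [splitE]
        have hc : (splitE V p).symm (A, y) j (Fin.last p).castSucc = A j (Fin.last p) := by
          simp only [splitE, Equiv.coe_fn_symm_mk, Fin.snoc_castSucc]
        have hi : Fin.init ((splitE V p).symm (A, y) j) = A j := by
          simp only [splitE, Equiv.coe_fn_symm_mk, Fin.init_snoc]
        rw [kap, hl, hc, hi]
      have e3 : ∏ k : Fin (p + 1 + 1), u k (fun j => (splitE V p).symm (A, y) j k)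
          = (∏ k : Fin (p + 1), u k (fun j => A j k)) * u (p + 1) y := by
        rw [Fin.prod_univ_castSucc]
        congr 1
        · refine prod_congr rfl fun k _ => ?_
          simp only [splitE, Equiv.coe_fn_symm_mk, Fin.snoc_castSucc, Fin.val_castSucc]
        · simp only [splitE, Equiv.coe_fn_symm_mk, Fin.snoc_last, Fin.val_last]
      rw [e1, e3]
      simp_rw [e2]
      rw [prod_mul_distrib]
      ring
    simp_rw [h1]
    rw [amp]
    simp_rw [ih]
    have h2 : ∀ A : V → Pth p, ∑ y : V → Bool, (if y = z then (1 : ℂ) else 0) * (u (p + 1) y *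
            ((∏ j, U j p (y j) (A j (Fin.last p))) *
            ((∏ j, kap (U j) p (A j)) * ∏ k : Fin (p + 1), u k (fun j => A j k))))
        = u (p + 1) z * ((∏ j, U j p (z j) (A j (Fin.last p))) *
            ((∏ j, kap (U j) p (A j)) * ∏ k : Fin (p + 1), u k (fun j => A j k))) := by
      intro A
      rw [sum_eq_single z]
      · simp
      · intro y _ hy; simp [hy]
      · intro h; exact absurd (mem_univ z) h
    simp_rw [h2]
    rw [← mul_sum]
    congr 1
    simp_rw [mul_sum]
    rw [sum_comm]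
    refine sum_congr rfl fun A _ => ?_
    rw [sum_eq_single (fun j => A j (Fin.last p))]
    · simp
    · intro y _ hy
      rw [if_neg (fun h => hy h.symm)]
      ring
    · intro h; exact absurd (mem_univ _) h

/-- the two-sided sum as a sum over contour paths -/
theorem sum_amp_mul_conj (U : V → Lay) (p : ℕ) (u v : ℕ → (V → Bool) → ℂ) :
    ∑ z, amp U p u z * conj (amp U p v z) =
      ∑ X : V → CP p, (∏ j, wgt (U j) p (X j)) *
        ((∏ k : Fin (p + 1), u k (fun j => (X j).1 k)) *
          ∏ k : Fin (p + 1), conj (v k (fun j => (X j).2 k))) := by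
  rw [← (Equiv.arrowProdEquivProdArrow V (fun _ => Pth p) (fun _ => Pth p)).symm.sum_comp,
    Fintype.sum_prod_type]
  have h1 : ∀ z : V → Bool, amp U p u z * conj (amp U p v z)
      = ∑ A : V → Pth p, ∑ B : V → Pth p,
        (if (fun j => A j (Fin.last p)) = z then (1 : ℂ) else 0) *
        (if (fun j => B j (Fin.last p)) = z then (1 : ℂ) else 0) *
        (((∏ j, kap (U j) p (A j)) * ∏ k : Fin (p + 1), u k (fun j => A j k)) *
          conj ((∏ j, kap (U j) p (B j)) * ∏ k : Fin (p + 1), v k (fun j => B j k))) := by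
    intro z
    rw [amp_path U p u, amp_path U p v, map_sum, sum_mul_sum]
    refine sum_congr rfl fun A _ => sum_congr rfl fun B _ => ?_
    rw [map_mul]
    have : conj (if (fun j => B j (Fin.last p)) = z then (1 : ℂ) else 0)
        = (if (fun j => B j (Fin.last p)) = z then (1 : ℂ) else 0) := by
      split_ifs <;> simp
    rw [this]
    ring
  simp_rw [h1]
  rw [sum_comm]
  refine sum_congr rfl fun A _ => ?_
  rw [sum_comm]
  refine sum_congr rfl fun B _ => ?_
  have h2 : ∑ z : V → Bool, (if (fun j => A j (Fin.last p)) = z then (1 : ℂ) else 0) *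
        (if (fun j => B j (Fin.last p)) = z then (1 : ℂ) else 0) *
        (((∏ j, kap (U j) p (A j)) * ∏ k : Fin (p + 1), u k (fun j => A j k)) *
          conj ((∏ j, kap (U j) p (B j)) * ∏ k : Fin (p + 1), v k (fun j => B j k)))
      = (if (fun j => A j (Fin.last p)) = (fun j => B j (Fin.last p)) then (1 : ℂ) else 0) *
        (((∏ j, kap (U j) p (A j)) * ∏ k : Fin (p + 1), u k (fun j => A j k)) *
          conj ((∏ j, kap (U j) p (B j)) * ∏ k : Fin (p + 1), v k (fun j => B j k))) := by
    rw [sum_eq_single (fun j => A j (Fin.last p))]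
    · by_cases h : (fun j => A j (Fin.last p)) = (fun j => B j (Fin.last p))
      · simp [h]
      · rw [if_neg h, if_neg (fun h' => h (Eq.symm h'))]
        simp
    · intro z _ hz
      rw [if_neg (fun h => hz h.symm)]
      ring
    · intro h; exact absurd (mem_univ _) h
  rw [h2]
  have h3 : ∏ j, wgt (U j) p (((Equiv.arrowProdEquivProdArrow V (fun _ => Pth p)
      (fun _ => Pth p)).symm (A, B)) j)
      = (if (fun j => A j (Fin.last p)) = (fun j => B j (Fin.last p)) then (1 : ℂ) else 0) *
        ((∏ j, kap (U j) p (A j)) * conj (∏ j, kap (U j) p (B j))) := by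
    have h4 : ∀ j, wgt (U j) p (((Equiv.arrowProdEquivProdArrow V (fun _ => Pth p)
        (fun _ => Pth p)).symm (A, B)) j) = kap (U j) p (A j) * conj (kap (U j) p (B j)) *
          (if A j (Fin.last p) = B j (Fin.last p) then (1 : ℂ) else 0) := fun j => rfl
    simp_rw [h4]
    rw [prod_mul_distrib, prod_mul_distrib, map_prod]
    have : ∏ j, (if A j (Fin.last p) = B j (Fin.last p) then (1 : ℂ) else 0)
        = (if (fun j => A j (Fin.last p)) = (fun j => B j (Fin.last p)) then (1 : ℂ) else 0) := by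
      by_cases h : (fun j => A j (Fin.last p)) = (fun j => B j (Fin.last p))
      · rw [if_pos h]
        exact prod_eq_one fun j _ => if_pos (congrFun h j)
      · rw [if_neg h]
        obtain ⟨j, hj⟩ := Function.ne_iff.1 h
        exact prod_eq_zero (mem_univ j) (if_neg hj)
    rw [this]
    ring
  rw [h3]
  simp only [Equiv.arrowProdEquivProdArrow, Equiv.coe_fn_symm_mk, map_mul, map_prod]
  ring

/-- unitarity bound -/
theorem norm_sum_paths_le (U : V → Lay) (hU : ∀ j, IsU (U j)) (p : ℕ)
    (u v : ℕ → (V → Bool) → ℂ) (hu : ∀ k z, ‖u k z‖ ≤ 1) (hv : ∀ k z, ‖v k z‖ ≤ 1) :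
    ‖∑ X : V → CP p, (∏ j, wgt (U j) p (X j)) *
        ((∏ k : Fin (p + 1), u k (fun j => (X j).1 k)) *
          ∏ k : Fin (p + 1), conj (v k (fun j => (X j).2 k)))‖ ≤ 1 := by
  rw [← sum_amp_mul_conj]
  have h1 := sum_norm_sq_amp U hU p u hu
  have h2 := sum_norm_sq_amp U hU p v hv
  calc ‖∑ z, amp U p u z * conj (amp U p v z)‖ ≤ ∑ z, ‖amp U p u z * conj (amp U p v z)‖ :=
        norm_sum_le _ _
    _ ≤ ∑ z, (‖amp U p u z‖ ^ 2 + ‖amp U p v z‖ ^ 2) / 2 := by
        refine sum_le_sum fun z _ => ?_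
        rw [norm_mul, RCLike.norm_conj]
        nlinarith [sq_nonneg (‖amp U p u z‖ - ‖amp U p v z‖)]
    _ = ((∑ z, ‖amp U p u z‖ ^ 2) + ∑ z, ‖amp U p v z‖ ^ 2) / 2 := by
        rw [← sum_div, sum_add_distrib]
    _ ≤ 1 := by linarith

end Vale.Agent.P367.Lab
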